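import Vale.Agent.P181.O2.Cnt

set_option autoImplicit false

/-!
# P181, O2, counting half, (E) ErrC

The big letter and the second big letter are lowered to fresh small letters, or the big letter is
lowered and all plain letters are lowered by one; one plain letter makes up the degree. The code of
the old state consists of a bit and six numbers at most `w`.
-/

namespace Vale.Agent.P181.O2.H266

open Vale.Agent.P181.O2

theorem mem_US {N t : ℕ} {U : Multiset (ℕ × ℕ)} :
    U ∈ US N t ↔ (0, 0) ∉ U ∧ (U.map Prod.fst).sum = N ∧ (U.map Prod.snd).sum = t := by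
  classical
  unfold US
  rw [Finset.mem_filter, Multiset.mem_toFinset, Multiset.mem_powerset]
  refine ⟨fun h => h.2, fun h => ⟨?_, h⟩⟩
  obtain ⟨h0, h1, h2⟩ := h
  rw [Multiset.le_iff_count]
  intro p
  by_cases hp : p ∈ U
  · have hp1 : p.1 ≤ N := h1 ▸ Multiset.single_le_sum (fun _ _ => Nat.zero_le _) _
      (Multiset.mem_map_of_mem Prod.fst hp)
    have hp2 : p.2 ≤ t := h2 ▸ Multiset.single_le_sum (fun _ _ => Nat.zero_le _) _
      (Multiset.mem_map_of_mem Prod.snd hp)
    have hc : Multiset.count p ((Finset.range (N + 1) ×ˢ Finset.range (t + 1)).val) = 1 :=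
      Multiset.count_eq_one_of_mem (Finset.nodup _) (by
        rw [Finset.mem_val, Finset.mem_product, Finset.mem_range, Finset.mem_range]; omega)
    rw [Multiset.count_nsmul, hc, mul_one]
    refine (Multiset.count_le_card _ _).trans ?_
    have h3 := Multiset.card_nsmul_le_sum (s := U.map fun p => p.1 + p.2) (a := 1) (by
      intro x hx
      obtain ⟨y, hy, rfl⟩ := Multiset.mem_map.1 hx
      by_contra h
      have h4 : y = (0, 0) := by
        rw [Prod.ext_iff]
        simp only
        omega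
      exact h0 (h4 ▸ hy))
    rw [Multiset.card_map, smul_eq_mul, mul_one, Multiset.sum_map_add] at h3
    rw [← h1, ← h2]
    exact h3
  · rw [Multiset.count_eq_zero_of_notMem hp]
    exact Nat.zero_le _

/-- Counting with codes. -/
theorem sum_code {α β γ : Type*} [Inhabited β] [Inhabited γ] (s : Finset α) (t : Finset β)
    (D : Finset γ) (g : γ → β → α) (c : α → ℕ) (c' : β → ℕ)
    (h : ∀ a ∈ s, ∃ d ∈ D, ∃ b ∈ t, a = g d b ∧ c a ≤ c' b) :
    ∑ a ∈ s, c a ≤ D.card * ∑ b ∈ t, c' b := by
  classical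
  choose! d hd b hb hg hc using h
  calc ∑ a ∈ s, c a ≤ ∑ a ∈ s, c' (b a) := Finset.sum_le_sum hc
    _ = ∑ x ∈ s.image (fun a => (d a, b a)), c' x.2 := by
        rw [Finset.sum_image]
        intro a ha a' ha' e
        simp only [Prod.mk.injEq] at e
        rw [hg a ha, hg a' ha', e.1, e.2]
    _ ≤ ∑ x ∈ D ×ˢ t, c' x.2 := Finset.sum_le_sum_of_subset (by
        intro x hx
        obtain ⟨a, ha, rfl⟩ := Finset.mem_image.1 hx
        exact Finset.mem_product.2 ⟨hd a ha, hb a ha⟩)
    _ = D.card * ∑ b ∈ t, c' b := by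
        rw [Finset.sum_product]
        simp only [Finset.sum_const, smul_eq_mul]

theorem fresh (S : Multiset (ℕ × ℕ)) (t u : ℕ) (hu : 1 ≤ u) (hS : (S.map Prod.snd).sum ≤ t) :
    ∃ j, 1 ≤ j ∧ j ≤ t + 1 ∧ (j, u) ∉ S := by
  classical
  by_contra h
  push Not at h
  have h1 : ((Finset.Icc 1 (t + 1)).image (fun j => (j, u))).val ≤ S := by
    rw [Multiset.le_iff_subset (Finset.nodup _)]
    intro x hx
    rw [Finset.mem_val, Finset.mem_image] at hx
    obtain ⟨j, hj, rfl⟩ := hx
    rw [Finset.mem_Icc] at hj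
    exact h j hj.1 hj.2
  obtain ⟨r, hr⟩ := Multiset.le_iff_exists_add.1 h1
  have h2 : ∑ x ∈ (Finset.Icc 1 (t + 1)).image (fun j => (j, u)), x.2 ≤
      (S.map Prod.snd).sum := by
    rw [hr, Multiset.map_add, Multiset.sum_add]
    exact Nat.le_add_right _ _
  rw [Finset.sum_image (by intro a _ b _ e; exact congrArg Prod.fst e)] at h2
  simp only [Finset.sum_const, Nat.card_Icc, smul_eq_mul] at h2
  have h3 : (t + 1) * 1 ≤ (t + 1 + 1 - 1) * u := by
    rw [Nat.add_sub_cancel]
    exact Nat.mul_le_mul_left _ hu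
  omega

theorem lower {c : Multiset (ℕ × ℕ) → ℕ} (hP : PlainW c) (hF : FreshW c) (i u t : ℕ)
    (S : Multiset (ℕ × ℕ)) (hS : (S.map Prod.snd).sum ≤ t) :
    ∃ j, 1 ≤ j ∧ j ≤ t + 1 ∧ c ((i, u) ::ₘ S) ≤ c ((j, u) ::ₘ S) := by
  rcases Nat.eq_zero_or_pos u with hu | hu
  · subst hu
    exact ⟨1, le_refl _, by omega, by rw [hP, hP]⟩
  · obtain ⟨j, h1, h2, h3⟩ := fresh S t u hu hS
    exact ⟨j, h1, h2, hF i j u S h3⟩

/-- The plain letters are raised by one, the lost letters `(1, 0)` are put back. -/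
def raise (n : ℕ) (V : Multiset (ℕ × ℕ)) : Multiset (ℕ × ℕ) :=
  V.filter (fun p => ¬ p.2 = 0) + (V.filter (fun p => p.2 = 0)).map (fun p => (p.1 + 1, p.2)) +
    Multiset.replicate (n - Multiset.card (V.filter (fun p => p.2 = 0))) (1, 0)

theorem raise_col (n : ℕ) (V : Multiset (ℕ × ℕ)) (p : ℕ × ℕ) (hp : ¬ p.2 = 0) :
    raise n (p ::ₘ V) = p ::ₘ raise n V := by
  unfold raise
  rw [Multiset.filter_cons_of_pos (p := fun p : ℕ × ℕ => ¬ p.2 = 0) V hp,
    Multiset.filter_cons_of_neg (p := fun p : ℕ × ℕ => p.2 = 0) V hp]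
  simp only [Multiset.cons_add]

theorem raise_plain (n k : ℕ) (V : Multiset (ℕ × ℕ)) :
    raise (n + 1) ((k, 0) ::ₘ V) = (k + 1, 0) ::ₘ raise n V := by
  unfold raise
  rw [Multiset.filter_cons_of_neg (p := fun p : ℕ × ℕ => ¬ p.2 = 0) V (by simp),
    Multiset.filter_cons_of_pos (p := fun p : ℕ × ℕ => p.2 = 0) V rfl, Multiset.card_cons,
    Multiset.map_cons, Nat.add_sub_add_right]
  simp only [Multiset.cons_add, Multiset.add_cons]

theorem raise_one (n : ℕ) (V : Multiset (ℕ × ℕ))
    (h : Multiset.card (V.filter (fun p => p.2 = 0)) ≤ n) :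
    raise (n + 1) V = (1, 0) ::ₘ raise n V := by
  unfold raise
  rw [Nat.succ_sub h, Multiset.replicate_succ, Multiset.add_cons]

theorem low_exists {c : Multiset (ℕ × ℕ) → ℕ} (hP : PlainW c) (R : Multiset (ℕ × ℕ)) :
    (0, 0) ∉ R → ∃ (L : Multiset (ℕ × ℕ)) (n : ℕ), (0, 0) ∉ L ∧
      (L.map Prod.fst).sum + n = (R.map Prod.fst).sum ∧
      (L.map Prod.snd).sum = (R.map Prod.snd).sum ∧
      Multiset.card R ≤ n + (R.map Prod.snd).sum ∧
      Multiset.card (L.filter (fun p => p.2 = 0)) ≤ n ∧ raise n L = R ∧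
      ∀ S, c (S + L) = c (S + R) := by
  induction R using Multiset.induction_on with
  | empty =>
    intro _
    refine ⟨0, 0, by simp, by simp, by simp, by simp, by simp, ?_, fun S => rfl⟩
    unfold raise
    simp
  | cons p R ih =>
    intro h0
    rw [Multiset.mem_cons, not_or] at h0
    obtain ⟨L, n, h1, h2, h3, h4, h5, h6, h7⟩ := ih h0.2
    obtain ⟨k, u⟩ := p
    by_cases hu : u = 0
    · subst hu
      rcases k with _ | _ | k
      · exact absurd rfl h0.1
      · refine ⟨L, n + 1, h1, ?_, ?_, ?_, by omega, ?_, fun S => ?_⟩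
        · simp only [Multiset.map_cons, Multiset.sum_cons]
          omega
        · simp only [Multiset.map_cons, Multiset.sum_cons]
          omega
        · simp only [Multiset.map_cons, Multiset.sum_cons, Multiset.card_cons]
          omega
        · rw [raise_one n L h5, h6]
        · rw [Multiset.add_cons, zero_add, hP, h7]
      · refine ⟨(k + 1, 0) ::ₘ L, n + 1, ?_, ?_, ?_, ?_, ?_, ?_, fun S => ?_⟩
        · rw [Multiset.mem_cons, not_or]
          refine ⟨fun h => ?_, h1⟩
          have := congrArg Prod.fst h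
          simp only at this
          omega
        · simp only [Multiset.map_cons, Multiset.sum_cons]
          omega
        · simp only [Multiset.map_cons, Multiset.sum_cons]
          omega
        · simp only [Multiset.map_cons, Multiset.sum_cons, Multiset.card_cons]
          omega
        · rw [Multiset.filter_cons_of_pos (p := fun p : ℕ × ℕ => p.2 = 0) L rfl,
            Multiset.card_cons]
          omega
        · rw [raise_plain, h6]
        · rw [Multiset.add_cons, Multiset.add_cons, hP, hP, h7]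
    · refine ⟨(k, u) ::ₘ L, n, ?_, ?_, ?_, ?_, ?_, ?_, fun S => ?_⟩
      · rw [Multiset.mem_cons, not_or]
        exact ⟨h0.1, h1⟩
      · simp only [Multiset.map_cons, Multiset.sum_cons]
        omega
      · simp only [Multiset.map_cons, Multiset.sum_cons]
        omega
      · simp only [Multiset.map_cons, Multiset.sum_cons, Multiset.card_cons]
        omega
      · rw [Multiset.filter_cons_of_neg (p := fun p : ℕ × ℕ => p.2 = 0) L hu]
        exact h5
      · rw [raise_col n L (k, u) hu, h6]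
      · rw [Multiset.add_cons, Multiset.add_cons, ← Multiset.cons_add, ← Multiset.cons_add, h7]

/-- The codes. -/
def cod (w : ℕ) : Finset (ℕ × ℕ × ℕ × ℕ × ℕ × ℕ × ℕ) :=
  Finset.range 2 ×ˢ Finset.range (w + 1) ×ˢ Finset.range (w + 1) ×ˢ Finset.range (w + 1) ×ˢ
    Finset.range (w + 1) ×ˢ Finset.range (w + 1) ×ˢ Finset.range (w + 1)

theorem card_cod (w : ℕ) : (cod w).card = 2 * (w + 1) ^ 6 := by
  unfold cod
  simp only [Finset.card_product, Finset.card_range]
  ring

theorem mem_cod {w f i u j x y z : ℕ} : (f, i, u, j, x, y, z) ∈ cod w ↔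
    f < 2 ∧ i ≤ w ∧ u ≤ w ∧ j ≤ w ∧ x ≤ w ∧ y ≤ w ∧ z ≤ w := by
  unfold cod
  simp only [Finset.mem_product, Finset.mem_range, Nat.lt_succ_iff]

/-- The decoding. -/
def dec (N m0 : ℕ) (d : ℕ × ℕ × ℕ × ℕ × ℕ × ℕ × ℕ) (V : Multiset (ℕ × ℕ)) :
    Multiset (ℕ × ℕ) :=
  if d.1 = 0 then
    (d.2.1, d.2.2.1) ::ₘ (d.2.2.2.2.1, d.2.2.2.2.2.1) ::ₘ
      (((V.erase (N + d.2.1 + d.2.2.2.2.1 - (m0 + d.2.2.2.1 + d.2.2.2.2.2.2), 0)).erase
        (d.2.2.2.1, d.2.2.1)).erase (d.2.2.2.2.2.2, d.2.2.2.2.2.1))
  else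
    (d.2.1, d.2.2.1) ::ₘ raise d.2.2.2.2.1
      ((V.erase (N + d.2.1 + d.2.2.2.2.1 - (m0 + d.2.2.2.1), 0)).erase (d.2.2.2.1, d.2.2.1))

theorem err : ErrC := by
  classical
  intro c hP hF a q t m0 N w hq htq ha hm hw
  refine (sum_code _ (US N t) (cod w) (dec N m0) c c ?_).trans ?_
  · intro U hU
    rw [Finset.mem_filter, mem_US] at hU
    obtain ⟨⟨h0, h1, h2⟩, x, hx, hxa, hbad⟩ := hU
    unfold szs at hx
    obtain ⟨⟨i, u⟩, hp, rfl⟩ := Multiset.mem_map.1 hx
    simp only at hxa
    obtain ⟨R, rfl⟩ := Multiset.exists_cons_of_mem hp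
    rw [Multiset.mem_cons, not_or] at h0
    simp only [Multiset.map_cons, Multiset.sum_cons] at h1 h2
    unfold Good at hbad
    rw [not_and_or] at hbad
    rcases hbad with hcard | hbig
    rotate_left
    · push Not at hbig
      obtain ⟨y, hy, hya⟩ := hbig
      unfold szs at hy
      rw [Multiset.map_cons, Multiset.erase_cons_head] at hy
      obtain ⟨⟨i', u'⟩, hp', rfl⟩ := Multiset.mem_map.1 hy
      simp only at hya
      obtain ⟨R', rfl⟩ := Multiset.exists_cons_of_mem hp'
      rw [Multiset.mem_cons, not_or] at h0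
      simp only [Multiset.map_cons, Multiset.sum_cons] at h1 h2
      obtain ⟨j, hj1, hj2, hj3⟩ := lower hP hF i u t ((i', u') ::ₘ R') (by
        simp only [Multiset.map_cons, Multiset.sum_cons]
        omega)
      obtain ⟨k, hk1, hk2, hk3⟩ := lower hP hF i' u' t ((j, u) ::ₘ R') (by
        simp only [Multiset.map_cons, Multiset.sum_cons]
        omega)
      obtain ⟨e, he⟩ : ∃ e, e = N + i + i' - (m0 + j + k) := ⟨_, rfl⟩
      have he1 : 1 ≤ e := by omega
      refine ⟨(0, i, u, j, i', u', k), ?_, (e, 0) ::ₘ (j, u) ::ₘ (k, u') ::ₘ R', ?_, ?_, ?_⟩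
      · rw [mem_cod]
        omega
      · rw [mem_US]
        refine ⟨?_, ?_, ?_⟩
        · simp only [Multiset.mem_cons, not_or, Prod.mk.injEq, not_and]
          refine ⟨by omega, by omega, by omega, h0.2.2⟩
        · simp only [Multiset.map_cons, Multiset.sum_cons]
          omega
        · simp only [Multiset.map_cons, Multiset.sum_cons]
          omega
      · unfold dec
        simp only [if_true]
        rw [← he, Multiset.erase_cons_head, Multiset.erase_cons_head, Multiset.erase_cons_head]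
      · rw [hP]
        refine hj3.trans ?_
        rw [Multiset.cons_swap, Multiset.cons_swap (j, u) (k, u')]
        exact hk3
    · unfold szs at hcard
      rw [Multiset.map_cons, Multiset.erase_cons_head, Multiset.card_map, not_le] at hcard
      obtain ⟨L, n, g1, g2, g3, g4, g5, g6, g7⟩ := low_exists hP R h0.2
      obtain ⟨j, hj1, hj2, hj3⟩ := lower hP hF i u t R (by omega)
      obtain ⟨e, he⟩ : ∃ e, e = N + i + n - (m0 + j) := ⟨_, rfl⟩
      have he1 : 1 ≤ e := by omega
      refine ⟨(1, i, u, j, n, 0, 0), ?_, (e, 0) ::ₘ (j, u) ::ₘ L, ?_, ?_, ?_⟩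
      · rw [mem_cod]
        omega
      · rw [mem_US]
        refine ⟨?_, ?_, ?_⟩
        · simp only [Multiset.mem_cons, not_or, Prod.mk.injEq, not_and]
          refine ⟨by omega, by omega, g1⟩
        · simp only [Multiset.map_cons, Multiset.sum_cons]
          omega
        · simp only [Multiset.map_cons, Multiset.sum_cons]
          omega
      · unfold dec
        simp only [one_ne_zero, if_false]
        rw [← he, Multiset.erase_cons_head, Multiset.erase_cons_head, g6]
      · rw [hP]
        refine hj3.trans (le_of_eq ?_)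
        have := g7 {(j, u)}
        rw [Multiset.singleton_add, Multiset.singleton_add] at this
        exact this.symm
  · rw [card_cod]
    exact Nat.mul_le_mul_right _ (Nat.mul_le_mul_right _ (by norm_num))

end Vale.Agent.P181.O2.H266
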